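import Mathlib

/-! The perturbation lemma for 2-dilations. -/

open scoped InnerProductSpace
open ContinuousLinearMap

namespace Vale.Agent.P123

theorem seq_lower_bound (m : ℕ → ℝ) (κ Δ B : ℝ) (hκ : 1 < κ) (hB : ∀ n, -B ≤ m n)
    (hrec : ∀ n, -Δ ≤ κ * m n - m (n + 1)) (n : ℕ) : -Δ ≤ (κ - 1) * m n := by
  have hbdd : BddBelow (Set.range m) := ⟨-B, by rintro _ ⟨k, rfl⟩; exact hB k⟩
  have hle : ∀ k, iInf m ≤ m k := fun k => ciInf_le hbdd k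
  have hκ0 : 0 < κ := by linarith
  have h1 : (iInf m - Δ) / κ ≤ iInf m := by
    refine le_ciInf fun k => ?_
    rw [div_le_iff₀ hκ0]
    have := hrec k
    have := hle (k + 1)
    linarith
  rw [div_le_iff₀ hκ0] at h1
  have := hle n
  nlinarith

theorem final_arith (κ s t m1 η ε : ℝ) (hκ : 2 < κ) (hs2 : s ≤ 2) (hη : 0 ≤ η)
    (hlow : -(κ / (κ - 1) * (2 - s) + η) ≤ (κ - 1) * m1) (hm1 : m1 = κ * s - t)
    (ht : κ ^ 2 - ε ^ 2 ≤ t) : κ * (κ - 2) ≤ ε ^ 2 + η := by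
  have h9 : κ / (κ - 1) * (2 - s) ≤ (κ - 1) * (κ * (2 - s)) := by
    have h10 : κ / (κ - 1) ≤ (κ - 1) * κ := by
      rw [div_le_iff₀ (by linarith)]
      have : 1 ≤ (κ - 1) * (κ - 1) := by nlinarith
      nlinarith
    have : 0 ≤ 2 - s := by linarith
    nlinarith
  have h11 : η ≤ (κ - 1) * η := by nlinarith
  have h12 : (κ - 1) * (-(κ * (2 - s)) - η) ≤ (κ - 1) * m1 := by nlinarith
  have h13 : -(κ * (2 - s)) - η ≤ m1 := le_of_mul_le_mul_left h12 (by linarith)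
  rw [hm1] at h13
  nlinarith

variable {H : Type*} [NormedAddCommGroup H] [InnerProductSpace ℂ H]

theorem re_inner_self_eq (v : H) : (⟪v, v⟫_ℂ).re = ‖v‖ ^ 2 := by
  rw [inner_self_eq_norm_sq_to_K]; simp [← Complex.ofReal_pow]

theorem re_inner_real_smul_left (r : ℝ) (v w : H) :
    (⟪(r : ℂ) • v, w⟫_ℂ).re = r * (⟪v, w⟫_ℂ).re := by
  rw [inner_smul_left]; simp

theorem re_inner_real_smul_right (r : ℝ) (v w : H) :
    (⟪v, (r : ℂ) • w⟫_ℂ).re = r * (⟪v, w⟫_ℂ).re := by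
  rw [inner_smul_right]; simp

theorem exists_approx_max (T : H →L[ℂ] H) (hT : 0 < ‖T‖) (ε : ℝ) (hε : 0 < ε) :
    ∃ x : H, ‖x‖ = 1 ∧ ‖T‖ ^ 2 - ε ^ 2 ≤ ‖T x‖ ^ 2 := by
  have hcont : ContinuousAt (fun t : ℝ => t ^ 2) ‖T‖ := by fun_prop
  have hlt : ‖T‖ ^ 2 - ε ^ 2 < ‖T‖ ^ 2 := by nlinarith
  have hev : ∀ᶠ t in nhds ‖T‖, ‖T‖ ^ 2 - ε ^ 2 < t ^ 2 := hcont.eventually (lt_mem_nhds hlt)
  have hev2 : ∀ᶠ t in nhds ‖T‖, 0 < t := lt_mem_nhds hT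
  obtain ⟨r, ⟨hr1, hr0⟩, hr2⟩ : ∃ r, (‖T‖ ^ 2 - ε ^ 2 < r ^ 2 ∧ 0 < r) ∧ r < ‖T‖ := by
    have := ((hev.and hev2).filter_mono (nhdsWithin_le_nhds (s := Set.Iio ‖T‖))).and
      self_mem_nhdsWithin
    exact this.exists
  obtain ⟨x, hx1, hx2⟩ := T.exists_lt_apply_of_lt_opNorm hr2
  have hx0 : x ≠ 0 := by
    rintro rfl
    simp at hx2
    linarith
  have hxpos : 0 < ‖x‖ := norm_pos_iff.mpr hx0
  refine ⟨((‖x‖⁻¹ : ℝ) : ℂ) • x, ?_, ?_⟩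
  · rw [norm_smul, Complex.norm_real, Real.norm_eq_abs, abs_of_pos (inv_pos.mpr hxpos)]
    field_simp
  · rw [map_smul, norm_smul, Complex.norm_real, Real.norm_eq_abs, abs_of_pos (inv_pos.mpr hxpos)]
    have h1 : 1 ≤ ‖x‖⁻¹ := one_le_inv₀ hxpos |>.mpr hx1.le
    have h2 : r ≤ ‖x‖⁻¹ * ‖T x‖ := by nlinarith [norm_nonneg (T x)]
    nlinarith

variable [CompleteSpace H]

theorem exists_approx_pair (T : H →L[ℂ] H) (κ : ℝ) (hκ : κ = ‖T‖) (hT : 0 < κ) (ε : ℝ)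
    (hε : 0 < ε) :
    ∃ x y : H, ‖x‖ = 1 ∧ ‖y‖ ≤ 1 ∧ T x = (κ : ℂ) • y ∧ κ ^ 2 - ε ^ 2 ≤ (κ * ‖y‖) ^ 2 ∧
      ‖(κ : ℂ) • x - (adjoint T) y‖ ≤ ε := by
  obtain ⟨x, hx1, hx2⟩ := exists_approx_max T (hκ ▸ hT) ε hε
  rw [← hκ] at hx2
  have hTx : ‖T x‖ ≤ κ := by simpa [hx1, ← hκ] using T.le_opNorm x
  obtain ⟨y, hy⟩ : ∃ y : H, y = ((κ⁻¹ : ℝ) : ℂ) • T x := ⟨_, rfl⟩
  have hTxy : T x = (κ : ℂ) • y := by
    rw [hy, smul_smul, ← Complex.ofReal_mul, mul_inv_cancel₀ hT.ne']; simp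
  have hny : κ * ‖y‖ = ‖T x‖ := by
    rw [hTxy, norm_smul, Complex.norm_real, Real.norm_eq_abs, abs_of_pos hT]
  have hy1 : ‖y‖ ≤ 1 := by nlinarith [norm_nonneg y]
  have hadj : ‖(adjoint T) y‖ ≤ κ * ‖y‖ := by
    have := (adjoint T).le_opNorm y
    rwa [LinearIsometryEquiv.norm_map, ← hκ] at this
  refine ⟨x, y, hx1, hy1, hTxy, by rw [hny]; exact hx2, ?_⟩
  have h1 : ‖(κ : ℂ) • x - (adjoint T) y‖ ^ 2
      = κ ^ 2 - 2 * (κ * (κ * ‖y‖ ^ 2)) + ‖(adjoint T) y‖ ^ 2 := by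
    rw [@norm_sub_sq ℂ, norm_smul, hx1, Complex.norm_real, Real.norm_eq_abs,
      abs_of_pos hT, RCLike.re_to_complex, re_inner_real_smul_left, adjoint_inner_right, hTxy,
      re_inner_real_smul_left, re_inner_self_eq]
    ring
  have h2 : ‖(adjoint T) y‖ ^ 2 ≤ (κ * ‖y‖) ^ 2 := by
    gcongr
  have h3 : ‖(κ : ℂ) • x - (adjoint T) y‖ ^ 2 ≤ ε ^ 2 := by
    rw [← hny] at hx2
    nlinarith
  exact abs_le_of_sq_le_sq' h3 hε.le |>.2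

theorem norm_le_two_of_dilation (T : H →L[ℂ] H) (E : ℕ → H →L[ℂ] H) (M : ℝ)
    (hcomm : ∀ n, Commute (E n) T)
    (hT : ∀ n, ‖T ^ n‖ ≤ M) (hE : ∀ n, ‖E n‖ ≤ M)
    (hineq : ∀ (n : ℕ) (c : ℝ), 0 < c → ∀ u x y : H,
      0 ≤ ((⟪y, E n u⟫_ℂ).re + (⟪(T ^ n) y, u⟫_ℂ).re)
        - ((⟪x, E (n + 1) u⟫_ℂ).re + (⟪(T ^ (n + 1)) x, u⟫_ℂ).re) + c * ‖u‖ ^ 2
        + (1 / c) * (‖x‖ ^ 2 + ‖y‖ ^ 2 - ((⟪x, E 1 y⟫_ℂ).re + (⟪T x, y⟫_ℂ).re))) :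
    ‖T‖ ≤ 2 := by
  by_contra hcon
  push Not at hcon
  obtain ⟨κ, hκdef⟩ : ∃ κ : ℝ, κ = ‖T‖ := ⟨_, rfl⟩
  rw [← hκdef] at hcon
  have hκ0 : 0 < κ := by linarith
  have hM : 0 ≤ M := (norm_nonneg _).trans (hT 0)
  have key : ∀ ε : ℝ, 0 < ε → κ * (κ - 2) ≤ ε ^ 2 + M ^ 2 * ε := by
    intro ε hε
    obtain ⟨x, y, hx1, hy1, hTxy, hx2, hen⟩ := exists_approx_pair T κ hκdef hκ0 ε hε
    obtain ⟨e, he⟩ : ∃ e : H, e = (κ : ℂ) • x - (adjoint T) y := ⟨_, rfl⟩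
    rw [← he] at hen
    obtain ⟨m, hm⟩ : ∃ m : ℕ → ℝ, ∀ n, m n = (⟪x, E n ((T ^ n) x)⟫_ℂ).re := ⟨_, fun _ => rfl⟩
    have hbound : ∀ (n : ℕ) (v : H), |(⟪v, E n ((T ^ n) x)⟫_ℂ).re| ≤ M ^ 2 * ‖v‖ := by
      intro n v
      have h1 : ‖(T ^ n) x‖ ≤ M := by
        have := (T ^ n).le_opNorm x
        rw [hx1, mul_one] at this
        exact this.trans (hT n)
      have h2 : ‖E n ((T ^ n) x)‖ ≤ M * M := by
        refine ((E n).le_opNorm _).trans ?_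
        exact mul_le_mul (hE n) h1 (norm_nonneg _) hM
      refine (Complex.abs_re_le_norm _).trans ((norm_inner_le_norm _ _).trans ?_)
      calc ‖v‖ * ‖E n ((T ^ n) x)‖ ≤ ‖v‖ * (M * M) := by gcongr
        _ = M ^ 2 * ‖v‖ := by ring
    have hB : ∀ n, -M ^ 2 ≤ m n := by
      intro n
      have := hbound n x
      rw [hx1, mul_one] at this
      rw [hm]
      exact (abs_le.mp this).1
    obtain ⟨s, hs⟩ : ∃ s : ℝ, s = (⟪x, E 1 y⟫_ℂ).re + (⟪T x, y⟫_ℂ).re := ⟨_, rfl⟩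
    have hy2 : ‖y‖ ^ 2 ≤ 1 := by nlinarith [norm_nonneg y]
    have hs2 : s ≤ 2 := by
      have := hineq 0 1 one_pos 0 x y
      simp only [map_zero, inner_zero_right, Complex.zero_re, norm_zero] at this
      rw [← hs, hx1] at this
      linarith
    have hc : 0 < 1 - κ⁻¹ := by
      have : κ⁻¹ < 1 := inv_lt_one_of_one_lt₀ (by linarith)
      linarith
    have hrec : ∀ n, -(κ / (κ - 1) * (2 - s) + M ^ 2 * ε) ≤ κ * m n - m (n + 1) := by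
      intro n
      have h0 := hineq n (1 - κ⁻¹) hc ((T ^ (n + 1)) x) x y
      rw [← hs, hx1] at h0
      have h2 : (⟪(T ^ n) y, (T ^ (n + 1)) x⟫_ℂ).re = κ⁻¹ * ‖(T ^ (n + 1)) x‖ ^ 2 := by
        have h21 : (T ^ (n + 1)) x = (κ : ℂ) • (T ^ n) y := by
          rw [← map_smul, ← hTxy, pow_succ]; rfl
        have : (T ^ n) y = ((κ⁻¹ : ℝ) : ℂ) • (T ^ (n + 1)) x := by
          rw [h21, smul_smul, ← Complex.ofReal_mul, inv_mul_cancel₀ hκ0.ne']; simp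
        rw [this, re_inner_real_smul_left, re_inner_self_eq]
      have h3 : κ * m n = (⟪y, E n ((T ^ (n + 1)) x)⟫_ℂ).re + (⟪e, E n ((T ^ n) x)⟫_ℂ).re := by
        have hc' : E n ((T ^ (n + 1)) x) = T (E n ((T ^ n) x)) := by
          have h31 : (E n * T) ((T ^ n) x) = (T * E n) ((T ^ n) x) := by rw [(hcomm n).eq]
          rw [pow_succ']
          exact h31
        rw [hc', he, inner_sub_left, adjoint_inner_left, Complex.sub_re, re_inner_real_smul_left,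
          hm]
        ring
      have h4 := (abs_le.mp (hbound n e)).1
      have h5 : M ^ 2 * ‖e‖ ≤ M ^ 2 * ε := by gcongr
      have h6 : 1 / (1 - κ⁻¹) = κ / (κ - 1) := by
        have : κ - 1 ≠ 0 := by linarith
        field_simp
      rw [re_inner_self_eq, h2, h6] at h0
      have h7 : κ / (κ - 1) * (1 ^ 2 + ‖y‖ ^ 2 - s) ≤ κ / (κ - 1) * (2 - s) := by
        have : 0 ≤ κ / (κ - 1) := div_nonneg hκ0.le (by linarith)
        apply mul_le_mul_of_nonneg_left _ this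
        linarith
      rw [h3, hm (n + 1)]
      linarith
    have hlow := seq_lower_bound m κ _ _ (by linarith) hB hrec 1
    have hm1 : m 1 = κ * s - (κ * ‖y‖) ^ 2 := by
      rw [hm, pow_one, hs, hTxy, map_smul, re_inner_real_smul_right, re_inner_real_smul_left,
        re_inner_self_eq]
      ring
    exact final_arith κ s _ (m 1) _ ε hcon hs2 (by positivity) hlow hm1 hx2
  have hcont : ContinuousAt (fun t : ℝ => t ^ 2 + M ^ 2 * t) 0 := by fun_prop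
  have hpos : (fun t : ℝ => t ^ 2 + M ^ 2 * t) 0 < κ * (κ - 2) := by
    simp only; nlinarith
  have hev := (hcont.eventually (gt_mem_nhds hpos)).filter_mono
    (nhdsWithin_le_nhds (s := Set.Ioi (0 : ℝ)))
  obtain ⟨ε, hε1, hε2⟩ := (hev.and self_mem_nhdsWithin).exists
  exact absurd (key ε hε2) (not_le.mpr hε1)

end Vale.Agent.P123
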