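import Vale.Agent.P123.Abstract

/-! The double-layer kernel attached to a convex curve around the numerical range. -/

open scoped InnerProductSpace ComplexConjugate Real
open ContinuousLinearMap MeasureTheory Complex Filter Topology

namespace Vale.Agent.P123

variable {H : Type*} [NormedAddCommGroup H] [InnerProductSpace ℂ H]

theorem norm_one_sub_smul_le (B : H →L[ℂ] H) (δ K : ℝ) (hδ : 0 < δ) (hK : δ ≤ K) (hB : ‖B‖ ≤ K)
    (hacc : ∀ u, δ * ‖u‖ ^ 2 ≤ (⟪u, B u⟫_ℂ).re) :
    ‖1 - ((δ / K ^ 2 : ℝ) : ℂ) • B‖ ≤ Real.sqrt (1 - δ ^ 2 / K ^ 2) := by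
  have hK0 : 0 < K := by linarith
  have hq : 0 ≤ 1 - δ ^ 2 / K ^ 2 := by
    rw [sub_nonneg, div_le_one (by positivity)]
    gcongr
  refine opNorm_le_bound _ (Real.sqrt_nonneg _) fun u => ?_
  have h1 : ‖B u‖ ≤ K * ‖u‖ := (B.le_opNorm u).trans (by gcongr)
  have h2 : ‖B u‖ ^ 2 ≤ (K * ‖u‖) ^ 2 := by gcongr
  have h3 : ‖(1 - ((δ / K ^ 2 : ℝ) : ℂ) • B) u‖ ^ 2
      = ‖u‖ ^ 2 - 2 * (δ / K ^ 2 * (⟪u, B u⟫_ℂ).re) + (δ / K ^ 2) ^ 2 * ‖B u‖ ^ 2 := by
    have : (1 - ((δ / K ^ 2 : ℝ) : ℂ) • B) u = u - ((δ / K ^ 2 : ℝ) : ℂ) • B u := rfl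
    rw [this, @norm_sub_sq ℂ, RCLike.re_to_complex, re_inner_real_smul_right, norm_smul,
      Complex.norm_real, Real.norm_eq_abs, mul_pow, sq_abs]
  have hη : 0 < δ / K ^ 2 := by positivity
  have h4 : ‖(1 - ((δ / K ^ 2 : ℝ) : ℂ) • B) u‖ ^ 2 ≤ (1 - δ ^ 2 / K ^ 2) * ‖u‖ ^ 2 := by
    rw [h3]
    have h5 : δ / K ^ 2 * (δ * ‖u‖ ^ 2) ≤ δ / K ^ 2 * (⟪u, B u⟫_ℂ).re :=
      mul_le_mul_of_nonneg_left (hacc u) hη.le
    have h6 : (δ / K ^ 2) ^ 2 * ‖B u‖ ^ 2 ≤ (δ / K ^ 2) ^ 2 * (K * ‖u‖) ^ 2 := by gcongr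
    have h7 : (δ / K ^ 2) ^ 2 * (K * ‖u‖) ^ 2 = δ ^ 2 / K ^ 2 * ‖u‖ ^ 2 := by field_simp
    have h8 : δ / K ^ 2 * (δ * ‖u‖ ^ 2) = δ ^ 2 / K ^ 2 * ‖u‖ ^ 2 := by field_simp
    linarith
  refine (abs_le_of_sq_le_sq' ?_ (by positivity)).2
  rw [mul_pow, Real.sq_sqrt hq]
  exact h4

theorem sqrt_one_sub_lt_one (δ K : ℝ) (hδ : 0 < δ) (hK : δ ≤ K) :
    Real.sqrt (1 - δ ^ 2 / K ^ 2) < 1 := by
  have hK0 : 0 < K := by linarith
  rw [Real.sqrt_lt' one_pos]
  have : 0 < δ ^ 2 / K ^ 2 := by positivity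
  linarith

theorem hasDerivAt_pow_succ_of_commute {R : Type*} [NormedRing R] [NormedAlgebra ℝ R]
    (C : ℝ → R) (C' : R) (t : ℝ) (hC : HasDerivAt C C' t) (hc : Commute C' (C t)) (k : ℕ) :
    HasDerivAt (fun s => C s ^ (k + 1)) (((k : ℝ) + 1) • (C' * C t ^ k)) t := by
  induction k with
  | zero => simpa using hC
  | succ k ih =>
    have h := ih.mul hC
    have h1 : (fun s => C s ^ (k + 1 + 1)) = (fun s => C s ^ (k + 1)) * C := by
      ext s; simp [pow_succ]
    rw [h1]
    convert h using 1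
    rw [← (hc.pow_right (k + 1)).eq, smul_mul_assoc, mul_assoc, ← pow_succ]
    push_cast
    rw [add_smul _ (1 : ℝ), one_smul]

variable [CompleteSpace H]

theorem isUnit_of_accretive (B : H →L[ℂ] H) (δ : ℝ) (hδ : 0 < δ)
    (hacc : ∀ u, δ * ‖u‖ ^ 2 ≤ (⟪u, B u⟫_ℂ).re) : IsUnit B := by
  have hK : δ ≤ max δ ‖B‖ := le_max_left _ _
  have h1 := (norm_one_sub_smul_le B δ _ hδ hK (le_max_right _ _) hacc).trans_lt
    (sqrt_one_sub_lt_one δ _ hδ hK)
  have h2 : IsUnit (((δ / (max δ ‖B‖) ^ 2 : ℝ) : ℂ) • B) := by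
    have := (Units.oneSub _ h1).isUnit
    simpa using this
  have hK0 : 0 < max δ ‖B‖ := by linarith
  have h3 : ((δ / (max δ ‖B‖) ^ 2 : ℝ) : ℂ) ≠ 0 := by
    rw [Complex.ofReal_ne_zero]; positivity
  have h4 : B = (((δ / (max δ ‖B‖) ^ 2 : ℝ) : ℂ))⁻¹ • (((δ / (max δ ‖B‖) ^ 2 : ℝ) : ℂ) • B) := by
    rw [smul_smul, inv_mul_cancel₀ h3, one_smul]
  rw [h4, Algebra.smul_def]
  exact ((IsUnit.mk0 _ (inv_ne_zero h3)).map (algebraMap ℂ (H →L[ℂ] H))).mul h2

/-- The logarithmic derivative of a closed loop of commuting accretive operators integrates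
to zero. -/
theorem integral_logDeriv_eq_zero (B B' : ℝ → H →L[ℂ] H) (δ a b : ℝ) (hab : a ≤ b) (hδ : 0 < δ)
    (hB : ∀ t, HasDerivAt B (B' t) t) (hB' : Continuous B') (hc : ∀ t, Commute (B' t) (B t))
    (hper : B b = B a) (hacc : ∀ t u, δ * ‖u‖ ^ 2 ≤ (⟪u, B t u⟫_ℂ).re)
    (hN : Continuous fun t => Ring.inverse (B t)) :
    ∫ t in a..b, B' t * Ring.inverse (B t) = 0 := by
  have hBc : Continuous B := continuous_iff_continuousAt.mpr fun t => (hB t).continuousAt
  obtain ⟨K0, hK0⟩ := (isCompact_Icc (a := a) (b := b)).exists_bound_of_continuousOn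
    hBc.continuousOn
  obtain ⟨K, hK⟩ : ∃ K, K = max δ K0 := ⟨_, rfl⟩
  have hδK : δ ≤ K := hK ▸ le_max_left _ _
  have hKpos : 0 < K := by linarith
  obtain ⟨η, hη⟩ : ∃ η : ℂ, η = ((δ / K ^ 2 : ℝ) : ℂ) := ⟨_, rfl⟩
  obtain ⟨q, hq⟩ : ∃ q : ℝ, q = Real.sqrt (1 - δ ^ 2 / K ^ 2) := ⟨_, rfl⟩
  have hq0 : 0 ≤ q := hq ▸ Real.sqrt_nonneg _
  have hq1 : q < 1 := hq ▸ sqrt_one_sub_lt_one δ K hδ hδK
  obtain ⟨C, hC⟩ : ∃ C : ℝ → H →L[ℂ] H, C = fun t => 1 - η • B t := ⟨_, rfl⟩
  have hCn : ∀ t ∈ Set.Icc a b, ‖C t‖ ≤ q := by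
    intro t ht
    rw [hC, hq, hη]
    exact norm_one_sub_smul_le (B t) δ K hδ hδK ((hK0 t ht).trans (hK ▸ le_max_right _ _))
      (hacc t)
  have hCc : Continuous C := by rw [hC]; fun_prop
  have hCd : ∀ t, HasDerivAt C (-(η • B' t)) t := by
    intro t
    rw [hC]
    exact ((hB t).const_smul η).const_sub 1
  have hCcomm : ∀ t, Commute (-(η • B' t)) (C t) := by
    intro t
    rw [hC]
    exact ((Commute.one_right _).sub_right (((hc t).smul_right η).smul_left η)).neg_left
  have hzero : ∀ k : ℕ, ∫ t in a..b, η • (B' t * C t ^ k) = 0 := by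
    intro k
    have h1 := intervalIntegral.integral_eq_sub_of_hasDerivAt (a := a) (b := b)
      (fun t _ => hasDerivAt_pow_succ_of_commute C _ t (hCd t) (hCcomm t) k)
      (by apply Continuous.intervalIntegrable; fun_prop)
    have h2 : C b = C a := by rw [hC]; simp only [hper]
    rw [h2, sub_self, intervalIntegral.integral_smul] at h1
    have h3 : ((k : ℝ) + 1) ≠ 0 := by positivity
    have h4 := (smul_eq_zero.mp h1).resolve_left h3
    simp only [neg_mul, smul_mul_assoc, intervalIntegral.integral_neg, neg_eq_zero] at h4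
    exact h4
  have hstep : ∀ k : ℕ, ∫ t in a..b, B' t * Ring.inverse (B t)
      = ∫ t in a..b, B' t * C t ^ k * Ring.inverse (B t) := by
    intro k
    induction k with
    | zero => simp
    | succ k ih =>
      rw [ih]
      have h1 : ∀ t, B' t * C t ^ k * Ring.inverse (B t)
          = B' t * C t ^ (k + 1) * Ring.inverse (B t) + η • (B' t * C t ^ k) := by
        intro t
        have hu := Ring.mul_inverse_cancel _ (isUnit_of_accretive (B t) δ hδ (hacc t))
        have h2 : C t * Ring.inverse (B t) = Ring.inverse (B t) - η • 1 := by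
          rw [hC]; simp only [sub_mul, one_mul, smul_mul_assoc, hu]
        rw [pow_succ, ← mul_assoc, mul_assoc _ (C t), h2, mul_sub, mul_smul_comm, mul_one]
        abel
      simp_rw [h1]
      rw [intervalIntegral.integral_add, hzero, add_zero]
      · apply Continuous.intervalIntegrable; fun_prop
      · apply Continuous.intervalIntegrable; fun_prop
  have hbound : ∀ k : ℕ, ‖∫ t in a..b, B' t * Ring.inverse (B t)‖
      ≤ q ^ k * ∫ t in a..b, ‖B' t‖ * ‖Ring.inverse (B t)‖ := by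
    intro k
    rcases Nat.eq_zero_or_pos k with rfl | hk
    · rw [pow_zero, one_mul]
      refine intervalIntegral.norm_integral_le_of_norm_le hab ?_ ?_
      · exact Eventually.of_forall fun t _ => norm_mul_le _ _
      · apply Continuous.intervalIntegrable; fun_prop
    rw [hstep k, ← intervalIntegral.integral_const_mul]
    refine intervalIntegral.norm_integral_le_of_norm_le hab ?_ ?_
    · refine Eventually.of_forall fun t ht => ?_
      have h1 : ‖C t ^ k‖ ≤ q ^ k :=
        (norm_pow_le' _ hk).trans (pow_le_pow_left₀ (norm_nonneg _) (hCn t ⟨ht.1.le, ht.2⟩) k)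
      calc ‖B' t * C t ^ k * Ring.inverse (B t)‖
          ≤ ‖B' t‖ * ‖C t ^ k‖ * ‖Ring.inverse (B t)‖ :=
            (norm_mul_le _ _).trans (by gcongr; exact norm_mul_le _ _)
        _ ≤ ‖B' t‖ * q ^ k * ‖Ring.inverse (B t)‖ := by gcongr
        _ = _ := by ring
    · apply Continuous.intervalIntegrable; fun_prop
  have hlim : Tendsto (fun k : ℕ => q ^ k * ∫ t in a..b, ‖B' t‖ * ‖Ring.inverse (B t)‖) atTop
      (𝓝 0) := by
    simpa using (tendsto_pow_atTop_nhds_zero_of_lt_one hq0 hq1).mul_const _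
  exact norm_le_zero_iff.mp (ge_of_tendsto' hlim hbound)

theorem exists_kernel (A : H →L[ℂ] H) (σ : ℝ → ℂ) (ρ : ℝ → ℝ) (δ : ℝ) (hδ : 0 < δ)
    (hρc : Continuous ρ) (hρ : ∀ t, 0 ≤ ρ t)
    (hσ : ∀ t : ℝ, HasDerivAt σ (I * ρ t * cexp (t * I)) t) (hper : σ (2 * π) = σ 0)
    (hacc : ∀ (t : ℝ) (u : H),
      δ * ‖u‖ ^ 2 ≤ (⟪u, (cexp (-(t * I)) • (σ t • (1 : H →L[ℂ] H) - A)) u⟫_ℂ).re) :
    ∃ ν : ℝ → H →L[ℂ] H, Continuous ν ∧ (∀ t u, 0 ≤ (⟪u, ν t u⟫_ℂ).re) ∧
      (∀ t, Commute (ν t) A) ∧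
      ∀ p : Polynomial ℂ, ∫ t in (0 : ℝ)..(2 * π), p.eval (σ t) • ν t = Polynomial.aeval A p := by
  obtain ⟨B, hB⟩ : ∃ B : ℝ → H →L[ℂ] H,
    B = fun t : ℝ => cexp (-(t * I)) • (σ t • (1 : H →L[ℂ] H) - A) := ⟨_, rfl⟩
  have hacc' : ∀ t u, δ * ‖u‖ ^ 2 ≤ (⟪u, B t u⟫_ℂ).re := by rw [hB]; exact hacc
  have hσc : Continuous σ := continuous_iff_continuousAt.mpr fun t => (hσ t).continuousAt
  have hBc : Continuous B := by rw [hB]; fun_prop
  have hunit : ∀ t, IsUnit (B t) := fun t => isUnit_of_accretive (B t) δ hδ (hacc' t)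
  have hN : Continuous fun t => Ring.inverse (B t) := by
    refine continuous_iff_continuousAt.mpr fun t => ?_
    have := NormedRing.inverse_continuousAt (hunit t).unit
    exact ContinuousAt.comp (f := B) (by simpa using this) hBc.continuousAt
  have hexp : ∀ t : ℝ, cexp (-(t * I)) * cexp (t * I) = 1 := by
    intro t; rw [← Complex.exp_add]; simp
  have hBd : ∀ t, HasDerivAt B ((-I) • B t + (I * ρ t) • (1 : H →L[ℂ] H)) t := by
    intro t
    have h1 : HasDerivAt (fun s : ℝ => cexp (-(s * I))) (cexp (-(t * I)) * (-I)) t := by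
      have h0 : HasDerivAt (fun s : ℝ => (s : ℂ)) 1 t := Complex.ofRealCLM.hasDerivAt
      have := ((h0.mul_const I).neg).cexp
      simpa using this
    have h2 : HasDerivAt (fun s : ℝ => σ s • (1 : H →L[ℂ] H) - A)
        ((I * ρ t * cexp (t * I)) • (1 : H →L[ℂ] H)) t := ((hσ t).smul_const _).sub_const A
    have h3 := h1.smul h2
    have h4 : cexp (-(t * I)) • (I * ρ t * cexp (t * I)) • (1 : H →L[ℂ] H)
        + (cexp (-(t * I)) * -I) • (σ t • (1 : H →L[ℂ] H) - A)
        = (-I) • B t + (I * ρ t) • (1 : H →L[ℂ] H) := by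
      rw [hB]
      simp only
      rw [smul_smul, smul_smul, add_comm, mul_comm (-I)]
      congr 2
      linear_combination (I * ρ t) * hexp t
    rw [h4] at h3
    rw [hB] at h3 ⊢
    exact h3
  have hBA : ∀ t, Commute (B t) A := by
    intro t
    rw [hB]
    exact (((Commute.one_left A).smul_left _).sub_left (Commute.refl A)).smul_left _
  have hNA : ∀ t, Commute (Ring.inverse (B t)) A := by
    intro t
    have h1 := (hBA t)
    rw [← (hunit t).unit_spec] at h1 ⊢
    rw [Ring.inverse_unit]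
    exact h1.units_inv_left
  have hzero := integral_logDeriv_eq_zero B (fun t => (-I) • B t + (I * ρ t) • (1 : H →L[ℂ] H))
    δ 0 (2 * π) (by positivity) hδ hBd (by fun_prop)
    (fun t => ((Commute.refl _).smul_left _).add_left ((Commute.one_left _).smul_left _))
    (by rw [hB]; simp [hper, Complex.exp_neg]) hacc' hN
  have hπ : (2 * π : ℂ) ≠ 0 := by
    simp
  have hmass : ∫ t in (0 : ℝ)..(2 * π), (ρ t : ℂ) • Ring.inverse (B t)
      = (2 * π : ℂ) • (1 : H →L[ℂ] H) := by
    have h1 : ∀ t, (ρ t : ℂ) • Ring.inverse (B t) = 1 + (-I) •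
        (((-I) • B t + (I * ρ t) • (1 : H →L[ℂ] H)) * Ring.inverse (B t)) := by
      intro t
      rw [add_mul, smul_mul_assoc, smul_mul_assoc, Ring.mul_inverse_cancel _ (hunit t), one_mul,
        smul_add, smul_smul, smul_smul]
      have e1 : -I * -I = -1 := by simp
      have e2 : -I * (I * ρ t) = ρ t := by
        linear_combination (-(ρ t : ℂ)) * I_mul_I
      rw [e1, e2]; simp
    simp_rw [h1]
    rw [intervalIntegral.integral_add, intervalIntegral.integral_smul, hzero]
    · simp only [intervalIntegral.integral_const, sub_zero, smul_zero, add_zero]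
      rw [← Complex.coe_smul]; push_cast; rfl
    · apply Continuous.intervalIntegrable; fun_prop
    · apply Continuous.intervalIntegrable; fun_prop
  have hmono : ∀ k : ℕ, ∫ t in (0 : ℝ)..(2 * π), (σ t ^ k * ρ t) • Ring.inverse (B t)
      = (2 * π : ℂ) • A ^ k := by
    intro k
    induction k with
    | zero => simpa using hmass
    | succ k ih =>
      have h1 : ∀ t, (σ t ^ (k + 1) * ρ t) • Ring.inverse (B t)
          = A * ((σ t ^ k * ρ t) • Ring.inverse (B t))
            + ((-I) * (σ t ^ k * (I * ρ t * cexp (t * I)))) • (1 : H →L[ℂ] H) := by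
        intro t
        have h2 : σ t • Ring.inverse (B t) = A * Ring.inverse (B t) + cexp (t * I) • 1 := by
          have h3 : cexp (t * I) • B t = σ t • (1 : H →L[ℂ] H) - A := by
            rw [hB]; simp only; rw [smul_smul, mul_comm, hexp, one_smul]
          have h4 : cexp (t * I) • (1 : H →L[ℂ] H)
              = (σ t • (1 : H →L[ℂ] H) - A) * Ring.inverse (B t) := by
            rw [← h3, smul_mul_assoc, Ring.mul_inverse_cancel _ (hunit t)]
          rw [h4, sub_mul, smul_mul_assoc, one_mul]; abel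
        have e1 : σ t ^ (k + 1) * ρ t = (σ t ^ k * ρ t) * σ t := by ring
        have e2 : (-I) * (σ t ^ k * (I * ρ t * cexp (t * I))) = σ t ^ k * ρ t * cexp (t * I) := by
          linear_combination (-(σ t ^ k * ρ t * cexp (t * I))) * I_mul_I
        rw [e1, e2, ← smul_smul, h2, smul_add, mul_smul_comm, smul_smul]
      simp_rw [h1]
      have h5 : ∫ t in (0 : ℝ)..(2 * π), σ t ^ k * (I * ρ t * cexp (t * I)) = 0 := by
        have h6 : ∀ t, HasDerivAt (fun s => σ s ^ (k + 1))
            (((k : ℂ) + 1) * (σ t ^ k * (I * ρ t * cexp (t * I)))) t := by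
          intro t
          have h61 := (hσ t).fun_pow (k + 1)
          simp only [Nat.add_sub_cancel, Nat.cast_add, Nat.cast_one] at h61
          rw [← mul_assoc]
          exact h61
        have h7 := intervalIntegral.integral_eq_sub_of_hasDerivAt (a := 0) (b := 2 * π)
          (fun t _ => h6 t) (by apply Continuous.intervalIntegrable; fun_prop)
        rw [hper, sub_self, intervalIntegral.integral_const_mul] at h7
        have h8 : ((k : ℂ) + 1) ≠ 0 := by exact_mod_cast Nat.succ_ne_zero k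
        exact (mul_eq_zero.mp h7).resolve_left h8
      have h9 := (ContinuousLinearMap.mul ℂ (H →L[ℂ] H) A).intervalIntegral_comp_comm
        (f := fun t => (σ t ^ k * ρ t) • Ring.inverse (B t)) (μ := volume) (a := 0) (b := 2 * π)
        (by apply Continuous.intervalIntegrable; fun_prop)
      simp only [ContinuousLinearMap.mul_apply'] at h9
      rw [intervalIntegral.integral_add, h9, ih, intervalIntegral.integral_smul_const,
        intervalIntegral.integral_const_mul, h5]
      · simp [pow_succ']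
      · apply Continuous.intervalIntegrable; fun_prop
      · apply Continuous.intervalIntegrable; fun_prop
  refine ⟨fun t => ((ρ t / (2 * π) : ℝ) : ℂ) • Ring.inverse (B t), by fun_prop, ?_, ?_, ?_⟩
  · intro t u
    have h1 : (((ρ t / (2 * π) : ℝ) : ℂ) • Ring.inverse (B t)) u
        = ((ρ t / (2 * π) : ℝ) : ℂ) • Ring.inverse (B t) u := rfl
    rw [h1, re_inner_real_smul_right]
    have h2 : B t (Ring.inverse (B t) u) = u := by
      have := congrArg (fun L : H →L[ℂ] H => L u) (Ring.mul_inverse_cancel _ (hunit t))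
      exact this
    have h3 := hacc' t (Ring.inverse (B t) u)
    rw [h2, ← inner_conj_symm, Complex.conj_re] at h3
    have h4 : 0 ≤ ρ t / (2 * π) := div_nonneg (hρ t) (by positivity)
    exact mul_nonneg h4 (le_trans (by positivity) h3)
  · intro t
    exact (hNA t).smul_left _
  · intro p
    induction p using Polynomial.induction_on' with
    | add p q hp hq =>
      simp only [Polynomial.eval_add, add_smul, map_add]
      rw [intervalIntegral.integral_add, hp, hq]
      · apply Continuous.intervalIntegrable; fun_prop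
      · apply Continuous.intervalIntegrable; fun_prop
    | monomial k c =>
      have h1 : ∀ t, ((Polynomial.monomial k) c).eval (σ t)
            • (((ρ t / (2 * π) : ℝ) : ℂ) • Ring.inverse (B t))
          = (c / (2 * π)) • ((σ t ^ k * ρ t) • Ring.inverse (B t)) := by
        intro t
        rw [Polynomial.eval_monomial, smul_smul, smul_smul]
        congr 1
        push_cast; ring
      simp_rw [h1]
      rw [intervalIntegral.integral_smul, hmono, smul_smul, div_mul_cancel₀ _ hπ,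
        Polynomial.aeval_monomial, Algebra.smul_def]

end Vale.Agent.P123
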