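import Vale.Agent.P123.Defs
import Vale.Agent.P123.Abstract

/-! The Toeplitz-Hausdorff theorem. -/

open scoped InnerProductSpace ComplexConjugate
open Complex

namespace Vale.Agent.P123

variable {H : Type*} [NormedAddCommGroup H] [InnerProductSpace ℂ H]

theorem exists_unit_inner_eq (B : H →L[ℂ] H) (x y : H) (hx : ‖x‖ = 1) (hy : ‖y‖ = 1)
    (h0 : ⟪x, B x⟫_ℂ = 0) (h1 : ⟪y, B y⟫_ℂ = 1) (s : ℝ) (hs0 : 0 ≤ s) (hs1 : s ≤ 1) :
    ∃ v : H, ‖v‖ = 1 ∧ ⟪v, B v⟫_ℂ = s := by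
  obtain ⟨l, hl1, hl2⟩ := Complex.exists_norm_eq_mul_self (⟪x, B y⟫_ℂ - conj ⟪y, B x⟫_ℂ)
  have hll : conj l * l = 1 := by rw [Complex.conj_mul', hl1]; simp
  obtain ⟨z, hz⟩ : ∃ z : ℝ → H, z = fun t : ℝ => ((1 - t : ℝ) : ℂ) • x + ((t : ℂ) * l) • y :=
    ⟨_, rfl⟩
  have hzc : Continuous z := by rw [hz]; fun_prop
  have hform : ∀ t : ℝ, ⟪z t, B (z t)⟫_ℂ
      = ((1 - t) * t : ℝ) * (l * ⟪x, B y⟫_ℂ + conj l * ⟪y, B x⟫_ℂ) + (t ^ 2 : ℝ) := by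
    intro t
    rw [hz]
    simp only [map_add, map_smul, inner_add_left, inner_add_right, inner_smul_left,
      inner_smul_right, h0, h1, map_mul, Complex.conj_ofReal]
    push_cast
    linear_combination ((t : ℂ) ^ 2) * hll
  have him0 : (l * ⟪x, B y⟫_ℂ + conj l * ⟪y, B x⟫_ℂ).im = 0 := by
    have h2 := congrArg Complex.im hl2
    rw [Complex.ofReal_im, mul_sub, Complex.sub_im] at h2
    have h3 : (conj l * ⟪y, B x⟫_ℂ).im = -(l * conj ⟪y, B x⟫_ℂ).im := by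
      rw [← Complex.conj_im, map_mul, Complex.conj_conj]
    rw [Complex.add_im, h3]
    linarith
  have him : ∀ t : ℝ, (⟪z t, B (z t)⟫_ℂ).im = 0 := by
    intro t
    rw [hform, Complex.add_im, Complex.im_ofReal_mul, him0, Complex.ofReal_im]
    ring
  have hne : ∀ t ∈ Set.Icc (0 : ℝ) 1, z t ≠ 0 := by
    intro t ht hzt
    have h2 : ((1 - t : ℝ) : ℂ) • x = -(((t : ℂ) * l) • y) := by
      rw [hz] at hzt
      exact eq_neg_of_add_eq_zero_left hzt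
    have h3 := congrArg (fun v : H => ⟪v, B v⟫_ℂ) h2
    simp only [map_neg, map_smul, inner_neg_left, inner_neg_right, inner_smul_left,
      inner_smul_right, h0, h1, map_mul, Complex.conj_ofReal] at h3
    have h4 : (t : ℂ) ^ 2 = 0 := by linear_combination -h3 - (t : ℂ) ^ 2 * hll
    have h5 : t = 0 := by exact_mod_cast pow_eq_zero_iff (two_ne_zero) |>.mp h4
    rw [h5] at h2
    simp at h2
    rw [h2] at hx
    simp at hx
  have hcont : Continuous fun t => (⟪z t, B (z t)⟫_ℂ).re - s * ‖z t‖ ^ 2 := by fun_prop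
  have hz0 : z 0 = x := by rw [hz]; simp
  have hz1 : ‖z 1‖ = 1 := by rw [hz]; simp [norm_smul, hl1, hy]
  obtain ⟨t, ht, hψ⟩ := intermediate_value_Icc (zero_le_one' ℝ) hcont.continuousOn
    (show (0 : ℝ) ∈ Set.Icc _ _ from by
      constructor
      · simp only [hz0, h0, hx]; simp [hs0]
      · simp only [hz1, hform]; simp [hs1])
  have hpos : 0 < ‖z t‖ := norm_pos_iff.mpr (hne t ht)
  refine ⟨((‖z t‖⁻¹ : ℝ) : ℂ) • z t, ?_, ?_⟩
  · rw [norm_smul, Complex.norm_real, Real.norm_eq_abs, abs_of_pos (inv_pos.mpr hpos)]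
    field_simp
  · have h2 : ⟪z t, B (z t)⟫_ℂ = ((s * ‖z t‖ ^ 2 : ℝ) : ℂ) := by
      apply Complex.ext
      · rw [Complex.ofReal_re]; simp only at hψ; linarith
      · rw [him, Complex.ofReal_im]
    rw [map_smul, inner_smul_left, inner_smul_right, h2, Complex.conj_ofReal]
    have h3 : (‖z t‖ : ℂ) ≠ 0 := by exact_mod_cast hpos.ne'
    push_cast
    field_simp

theorem convex_numericalRange (A : H →L[ℂ] H) : Convex ℝ (numericalRange A) := by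
  rintro a ⟨x, hx, rfl⟩ b ⟨y, hy, rfl⟩ r s hr hs hrs
  by_cases hab : ⟪y, A y⟫_ℂ - ⟪x, A x⟫_ℂ = 0
  · refine ⟨x, hx, ?_⟩
    rw [sub_eq_zero.mp hab, ← add_smul, hrs, one_smul]
  have hxx : ⟪x, x⟫_ℂ = 1 := by rw [inner_self_eq_norm_sq_to_K, hx]; simp
  have hyy : ⟪y, y⟫_ℂ = 1 := by rw [inner_self_eq_norm_sq_to_K, hy]; simp
  have hB : ∀ v : H, ⟪v, ((⟪y, A y⟫_ℂ - ⟪x, A x⟫_ℂ)⁻¹ • (A - ⟪x, A x⟫_ℂ • (1 : H →L[ℂ] H))) v⟫_ℂ
      = (⟪y, A y⟫_ℂ - ⟪x, A x⟫_ℂ)⁻¹ * (⟪v, A v⟫_ℂ - ⟪x, A x⟫_ℂ * ⟪v, v⟫_ℂ) := by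
    intro v
    have : ((⟪y, A y⟫_ℂ - ⟪x, A x⟫_ℂ)⁻¹ • (A - ⟪x, A x⟫_ℂ • (1 : H →L[ℂ] H))) v
        = (⟪y, A y⟫_ℂ - ⟪x, A x⟫_ℂ)⁻¹ • (A v - ⟪x, A x⟫_ℂ • v) := rfl
    rw [this, inner_smul_right, inner_sub_right, inner_smul_right]
  obtain ⟨v, hv1, hv2⟩ := exists_unit_inner_eq _ x y hx hy
    (by rw [hB, hxx]; simp) (by rw [hB, hyy, mul_one, inv_mul_cancel₀ hab]) s hs (by linarith)
  refine ⟨v, hv1, ?_⟩
  have hvv : ⟪v, v⟫_ℂ = 1 := by rw [inner_self_eq_norm_sq_to_K, hv1]; simp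
  rw [hB, hvv, mul_one, inv_mul_eq_div, div_eq_iff hab] at hv2
  have hr' : (r : ℂ) = 1 - s := by
    have : r = 1 - s := by linarith
    rw [this]; push_cast; ring
  rw [Complex.real_smul, Complex.real_smul, hr']
  linear_combination hv2

end Vale.Agent.P123
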