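import Mathlib

namespace Vale.Agent.P123

/-- The numerical range `W(A) = {⟨A x, x⟩ : ‖x‖ = 1}`. Mathlib's inner product is linear in the
second argument, so `⟨A x, x⟩` is written `inner ℂ x (A x)`. -/
def numericalRange {H : Type*} [NormedAddCommGroup H] [InnerProductSpace ℂ H]
    (A : H →L[ℂ] H) : Set ℂ :=
  {z | ∃ x : H, ‖x‖ = 1 ∧ inner ℂ x (A x) = z}

end Vale.Agent.P123
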