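import Mathlib

/-! A `C^1` convex curve close to a bounded convex planar set. -/

open scoped InnerProductSpace ComplexConjugate Real
open MeasureTheory Complex Filter Topology

namespace Vale.Agent.P123

theorem exists_support_fn (W : Set ℂ) (hne : W.Nonempty) (L : ℝ) (hL : ∀ w ∈ W, ‖w‖ ≤ L) :
    ∃ h : ℝ → ℝ, (∀ (t : ℝ), ∀ w ∈ W, (cexp (-(t * I)) * w).re ≤ h t) ∧
      (∀ (t c : ℝ), (∀ w ∈ W, (cexp (-(t * I)) * w).re ≤ c) → h t ≤ c) := by
  refine ⟨fun t => sSup ((fun w => (cexp (-(t * I)) * w).re) '' W), ?_, ?_⟩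
  · intro t w hw
    refine le_csSup ⟨L, ?_⟩ ⟨w, hw, rfl⟩
    rintro _ ⟨v, hv, rfl⟩
    refine (Complex.re_le_norm _).trans ?_
    have : ‖cexp (-(t * I))‖ = 1 := by
      have := Complex.norm_exp_ofReal_mul_I (-t)
      simpa using this
    rw [norm_mul, this, one_mul]
    exact hL v hv
  · intro t c hc
    refine csSup_le (hne.image _) ?_
    rintro _ ⟨v, hv, rfl⟩
    exact hc v hv

theorem norm_exp_neg_sub_le (s t : ℝ) : ‖cexp (-(s * I)) - cexp (-(t * I))‖ ≤ |s - t| := by
  have h1 : cexp (-(s * I)) - cexp (-(t * I))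
      = cexp (-(t * I)) * (cexp (I * ((t - s : ℝ) : ℂ)) - 1) := by
    rw [mul_sub, ← Complex.exp_add, mul_one]
    congr 2
    push_cast; ring
  have h2 : ‖cexp (-(t * I))‖ = 1 := by
    have := Complex.norm_exp_ofReal_mul_I (-t)
    simpa using this
  rw [h1, norm_mul, h2, one_mul, abs_sub_comm]
  exact Real.norm_exp_I_mul_ofReal_sub_one_le

theorem weighted_avg_bound (h k : ℝ → ℝ) (hh : Continuous h) (hk : Continuous k) (a b h0 β : ℝ)
    (hab : a ≤ b) (hk0 : ∀ s ∈ Set.Icc a b, 0 ≤ k s) (hβ : ∀ s ∈ Set.Icc a b, |h s - h0| ≤ β) :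
    (h0 - β) * ∫ s in a..b, k s ≤ ∫ s in a..b, h s * k s ∧
      ∫ s in a..b, h s * k s ≤ (h0 + β) * ∫ s in a..b, k s := by
  rw [← intervalIntegral.integral_const_mul, ← intervalIntegral.integral_const_mul]
  constructor
  · refine intervalIntegral.integral_mono_on hab ?_ ?_ fun s hs => ?_
    · apply Continuous.intervalIntegrable; fun_prop
    · apply Continuous.intervalIntegrable; fun_prop
    · have := abs_le.mp (hβ s hs)
      exact mul_le_mul_of_nonneg_right (by linarith) (hk0 s hs)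
  · refine intervalIntegral.integral_mono_on hab ?_ ?_ fun s hs => ?_
    · apply Continuous.intervalIntegrable; fun_prop
    · apply Continuous.intervalIntegrable; fun_prop
    · have := abs_le.mp (hβ s hs)
      exact mul_le_mul_of_nonneg_right (by linarith) (hk0 s hs)

theorem re_mul_integral (c : ℂ) (g : ℝ → ℂ) (hg : Continuous g) (a b : ℝ) :
    (c * ∫ s in a..b, g s).re = ∫ s in a..b, (c * g s).re := by
  rw [← intervalIntegral.integral_const_mul]
  have := Complex.reCLM.intervalIntegral_comp_comm (f := fun s => c * g s) (μ := volume)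
    (a := a) (b := b) (by apply Continuous.intervalIntegrable; fun_prop)
  exact this.symm

/-- Smoothing a support function. -/
theorem exists_smooth_curve (h : ℝ → ℝ) (L ε : ℝ) (hL : 0 ≤ L) (hε : 0 < ε) (hε1 : ε ≤ 1)
    (hlip : ∀ s t, |h s - h t| ≤ L * |s - t|)
    (hsub : ∀ t, 2 * Real.cos ε * h t ≤ h (t + ε) + h (t - ε))
    (hper : ∀ t, h (t + 2 * π) = h t) :
    ∃ (σ : ℝ → ℂ) (ρ : ℝ → ℝ), Continuous ρ ∧ (∀ t, 0 ≤ ρ t) ∧
      (∀ t : ℝ, HasDerivAt σ (I * ρ t * cexp (t * I)) t) ∧ σ (2 * π) = σ 0 ∧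
      ∀ t : ℝ, |(cexp (-(t * I)) * σ t).re - h t| ≤ L * ε := by
  have hhc : Continuous h := by
    have : LipschitzWith ⟨L, hL⟩ h := LipschitzWith.of_dist_le_mul fun s t => hlip s t
    exact this.continuous
  have hcos : Real.cos ε < 1 := by
    rw [← Real.cos_zero]
    exact Real.cos_lt_cos_of_nonneg_of_le_pi le_rfl (by linarith [Real.pi_gt_three]) hε
  obtain ⟨c, hc⟩ : ∃ c : ℝ, c = 1 / (2 * (1 - Real.cos ε)) := ⟨_, rfl⟩
  have hc0 : 0 < c := by rw [hc]; apply one_div_pos.mpr; linarith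
  have hc1 : c * (2 * (1 - Real.cos ε)) = 1 := by
    rw [hc]; apply one_div_mul_cancel; linarith
  obtain ⟨g, hg⟩ : ∃ g : ℝ → ℂ, g = fun s : ℝ => (h s : ℂ) * cexp (s * I) := ⟨_, rfl⟩
  have hgc : Continuous g := by rw [hg]; fun_prop
  have hgper : ∀ s, g (s + 2 * π) = g s := by
    intro s
    rw [hg]
    simp only [hper]
    push_cast
    rw [add_mul, Complex.exp_add, Complex.exp_two_pi_mul_I, mul_one]
  have hG : ∀ t, HasDerivAt (fun u => ∫ s in (0 : ℝ)..u, g s) (g t) t :=
    fun t => (hgc.integral_hasStrictDerivAt 0 t).hasDerivAt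
  have hGsub : ∀ a b : ℝ, ∫ s in a..b, g s = (∫ s in (0 : ℝ)..b, g s) - ∫ s in (0 : ℝ)..a, g s :=
    fun a b => (intervalIntegral.integral_interval_sub_left (hgc.intervalIntegrable _ _)
      (hgc.intervalIntegrable _ _)).symm
  refine ⟨fun t => (c * I * cexp (-(ε * I))) * (∫ s in t..(t + ε), g s)
      - (c * I * cexp (ε * I)) * ∫ s in (t - ε)..t, g s,
    fun t => c * (h (t + ε) + h (t - ε) - 2 * Real.cos ε * h t), by fun_prop, ?_, ?_, ?_, ?_⟩
  · intro t
    exact mul_nonneg hc0.le (by linarith [hsub t])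
  · intro t
    have h0 : (fun t => (c * I * cexp (-(ε * I))) * (∫ s in t..(t + ε), g s)
        - (c * I * cexp (ε * I)) * ∫ s in (t - ε)..t, g s)
        = fun t => (c * I * cexp (-(ε * I)))
          * ((∫ s in (0 : ℝ)..(t + ε), g s) - ∫ s in (0 : ℝ)..t, g s)
        - (c * I * cexp (ε * I)) * ((∫ s in (0 : ℝ)..t, g s) - ∫ s in (0 : ℝ)..(t - ε), g s) := by
      ext t
      rw [hGsub t (t + ε), hGsub (t - ε) t]
    rw [h0]
    have h1 : HasDerivAt (fun u => ∫ s in (0 : ℝ)..(u + ε), g s) (g (t + ε)) t :=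
      (hG (t + ε)).comp_add_const t ε
    have h2 : HasDerivAt (fun u => ∫ s in (0 : ℝ)..(u - ε), g s) (g (t - ε)) t :=
      (hG (t - ε)).comp_sub_const t ε
    have h3 := ((h1.sub (hG t)).const_mul (c * I * cexp (-(ε * I)))).sub
      (((hG t).sub h2).const_mul (c * I * cexp (ε * I)))
    have h4 : c * I * cexp (-(ε * I)) * (g (t + ε) - g t) - c * I * cexp (ε * I) * (g t - g (t - ε))
        = I * ((c * (h (t + ε) + h (t - ε) - 2 * Real.cos ε * h t) : ℝ) : ℂ) * cexp (t * I) := by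
      rw [hg]
      simp only
      have e1 : cexp (((t + ε : ℝ) : ℂ) * I) = cexp (t * I) * cexp (ε * I) := by
        rw [← Complex.exp_add]; congr 1; push_cast; ring
      have e2 : cexp (((t - ε : ℝ) : ℂ) * I) = cexp (t * I) * cexp (-(ε * I)) := by
        rw [← Complex.exp_add]; congr 1; push_cast; ring
      have e3 : cexp (-(ε * I)) * cexp (ε * I) = 1 := by rw [← Complex.exp_add]; simp
      have e4 : 2 * Complex.cos ε = cexp (ε * I) + cexp (-(ε * I)) := by
        rw [Complex.two_cos]; simp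
      rw [e1, e2]
      push_cast
      linear_combination (c * I * cexp (t * I) * (h (t + ε) + h (t - ε))) * e3
        + (c * I * cexp (t * I) * h t) * e4
    rw [h4] at h3
    exact h3
  · have h1 : ∫ s in (2 * π)..(2 * π + ε), g s = ∫ s in (0 : ℝ)..(0 + ε), g s := by
      have := intervalIntegral.integral_comp_add_right (a := 0) (b := 0 + ε) g (2 * π)
      simp only [hgper] at this
      rw [this]; congr 1 <;> ring
    have h2 : ∫ s in (2 * π - ε)..(2 * π), g s = ∫ s in (0 - ε : ℝ)..0, g s := by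
      have := intervalIntegral.integral_comp_add_right (a := 0 - ε) (b := 0) g (2 * π)
      simp only [hgper] at this
      rw [this]; congr 1 <;> ring
    simp only [h1, h2]
  · intro t
    have h1 : (cexp (-(t * I)) * ((c * I * cexp (-(ε * I))) * ∫ s in t..(t + ε), g s)).re
        = c * ∫ s in t..(t + ε), h s * Real.sin (t + ε - s) := by
      rw [← mul_assoc, re_mul_integral _ _ hgc, ← intervalIntegral.integral_const_mul]
      congr 1
      ext s
      have : cexp (-(t * I)) * (c * I * cexp (-(ε * I))) * g s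
          = ((c * h s : ℝ) : ℂ) * (I * cexp (((-(t + ε - s) : ℝ) : ℂ) * I)) := by
        rw [hg]
        have e1 : cexp (((-(t + ε - s) : ℝ) : ℂ) * I)
            = cexp (-(t * I)) * cexp (-(ε * I)) * cexp (s * I) := by
          rw [← Complex.exp_add, ← Complex.exp_add]; congr 1; push_cast; ring
        rw [e1]; push_cast; ring
      rw [this, Complex.re_ofReal_mul, Complex.I_mul_re, Complex.exp_ofReal_mul_I_im, Real.sin_neg]
      ring
    have h2 : (cexp (-(t * I)) * ((c * I * cexp (ε * I)) * ∫ s in (t - ε)..t, g s)).re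
        = -(c * ∫ s in (t - ε)..t, h s * Real.sin (s - (t - ε))) := by
      rw [← mul_assoc, re_mul_integral _ _ hgc, ← intervalIntegral.integral_const_mul,
        ← intervalIntegral.integral_neg]
      congr 1
      ext s
      have : cexp (-(t * I)) * (c * I * cexp (ε * I)) * g s
          = ((c * h s : ℝ) : ℂ) * (I * cexp ((((s - (t - ε)) : ℝ) : ℂ) * I)) := by
        rw [hg]
        have e1 : cexp ((((s - (t - ε)) : ℝ) : ℂ) * I)
            = cexp (-(t * I)) * cexp (ε * I) * cexp (s * I) := by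
          rw [← Complex.exp_add, ← Complex.exp_add]; congr 1; push_cast; ring
        rw [e1]; push_cast; ring
      rw [this, Complex.re_ofReal_mul, Complex.I_mul_re, Complex.exp_ofReal_mul_I_im]
      ring
    have hπ := Real.pi_gt_three
    have h3 := weighted_avg_bound h (fun s => Real.sin (t + ε - s)) hhc (by fun_prop) t (t + ε)
      (h t) (L * ε) (by linarith)
      (fun s hs => Real.sin_nonneg_of_nonneg_of_le_pi (by linarith [hs.2]) (by linarith [hs.1]))
      (fun s hs => (hlip s t).trans (mul_le_mul_of_nonneg_left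
        (abs_le.mpr ⟨by linarith [hs.1], by linarith [hs.2]⟩) hL))
    have h4 := weighted_avg_bound h (fun s => Real.sin (s - (t - ε))) hhc (by fun_prop) (t - ε) t
      (h t) (L * ε) (by linarith)
      (fun s hs => Real.sin_nonneg_of_nonneg_of_le_pi (by linarith [hs.1]) (by linarith [hs.2]))
      (fun s hs => (hlip s t).trans (mul_le_mul_of_nonneg_left
        (abs_le.mpr ⟨by linarith [hs.1], by linarith [hs.2]⟩) hL))
    have h5 : ∫ s in t..(t + ε), Real.sin (t + ε - s) = 1 - Real.cos ε := by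
      rw [intervalIntegral.integral_comp_sub_left (fun s => Real.sin s)]
      simp
    have h6 : ∫ s in (t - ε)..t, Real.sin (s - (t - ε)) = 1 - Real.cos ε := by
      rw [intervalIntegral.integral_comp_sub_right (fun s => Real.sin s)]
      simp
    rw [h5] at h3
    rw [h6] at h4
    simp only
    rw [mul_sub, Complex.sub_re, h1, h2]
    generalize (∫ s in t..(t + ε), h s * Real.sin (t + ε - s)) = X at *
    generalize (∫ s in (t - ε)..t, h s * Real.sin (s - (t - ε))) = Y at *
    have h7 : c * (2 * ((h t - L * ε) * (1 - Real.cos ε))) ≤ c * (X + Y) :=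
      mul_le_mul_of_nonneg_left (by linarith [h3.1, h4.1]) hc0.le
    have h8 : c * (X + Y) ≤ c * (2 * ((h t + L * ε) * (1 - Real.cos ε))) :=
      mul_le_mul_of_nonneg_left (by linarith [h3.2, h4.2]) hc0.le
    have h9 : c * (2 * ((h t - L * ε) * (1 - Real.cos ε))) = h t - L * ε := by
      linear_combination (h t - L * ε) * hc1
    have h10 : c * (2 * ((h t + L * ε) * (1 - Real.cos ε))) = h t + L * ε := by
      linear_combination (h t + L * ε) * hc1
    rw [abs_le]
    constructor <;> linarith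

/-- A curve with tangent `i ρ e^{it}` lies in each of its supporting half-planes. -/
theorem curve_le_support (σ : ℝ → ℂ) (ρ : ℝ → ℝ) (hρc : Continuous ρ) (hρ : ∀ t, 0 ≤ ρ t)
    (hσ : ∀ t : ℝ, HasDerivAt σ (I * ρ t * cexp (t * I)) t) (t φ : ℝ) (h1 : t - π ≤ φ)
    (h2 : φ ≤ t + π) : (cexp (-(φ * I)) * σ t).re ≤ (cexp (-(φ * I)) * σ φ).re := by
  have hd : ∀ s : ℝ, HasDerivAt (fun s => (cexp (-(φ * I)) * σ s).re)
      (ρ s * Real.sin (φ - s)) s := by
    intro s
    have h3 := Complex.reCLM.hasFDerivAt.comp_hasDerivAt s ((hσ s).const_mul (cexp (-(φ * I))))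
    have h4 : Complex.reCLM (cexp (-(φ * I)) * (I * ρ s * cexp (s * I)))
        = ρ s * Real.sin (φ - s) := by
      have e1 : cexp (-(φ * I)) * (I * ρ s * cexp (s * I))
          = (ρ s : ℂ) * (I * cexp (((-(φ - s) : ℝ) : ℂ) * I)) := by
        have e2 : cexp (((-(φ - s) : ℝ) : ℂ) * I) = cexp (-(φ * I)) * cexp (s * I) := by
          rw [← Complex.exp_add]; congr 1; push_cast; ring
        rw [e2]; ring
      rw [Complex.reCLM_apply, e1, Complex.re_ofReal_mul, Complex.I_mul_re,
        Complex.exp_ofReal_mul_I_im, Real.sin_neg, neg_neg]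
    rw [h4] at h3
    exact h3
  have hint := intervalIntegral.integral_eq_sub_of_hasDerivAt (a := t) (b := φ)
    (fun s _ => hd s) (by apply Continuous.intervalIntegrable; fun_prop)
  rw [← sub_nonneg, ← hint]
  rcases le_total t φ with h | h
  · refine intervalIntegral.integral_nonneg h fun s hs => mul_nonneg (hρ s) ?_
    exact Real.sin_nonneg_of_nonneg_of_le_pi (by linarith [hs.2]) (by linarith [hs.1])
  · rw [intervalIntegral.integral_symm, ← intervalIntegral.integral_neg]
    refine intervalIntegral.integral_nonneg h fun s hs => ?_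
    rw [← mul_neg, ← Real.sin_neg, neg_sub]
    refine mul_nonneg (hρ s) ?_
    exact Real.sin_nonneg_of_nonneg_of_le_pi (by linarith [hs.1]) (by linarith [hs.2])

theorem near_of_le_support (W : Set ℂ) (hne : W.Nonempty) (hW : Convex ℝ W) (h : ℝ → ℝ)
    (hh : ∀ (t c : ℝ), (∀ w ∈ W, (cexp (-(t * I)) * w).re ≤ c) → h t ≤ c)
    (z : ℂ) (t β η : ℝ) (hβ : 0 ≤ β) (hη : β < η)
    (hz : ∀ φ : ℝ, t - π ≤ φ → φ ≤ t + π → (cexp (-(φ * I)) * z).re ≤ h φ + β) :
    ∃ w ∈ W, ‖z - w‖ < η := by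
  obtain ⟨p, hp, hmin⟩ := exists_norm_eq_iInf_of_complete_convex hne.closure
    isClosed_closure.isComplete hW.closure z
  rw [norm_eq_iInf_iff_real_inner_le_zero hW.closure hp] at hmin
  have hzp : ‖z - p‖ ≤ β := by
    rcases eq_or_lt_of_le (norm_nonneg (z - p)) with h0 | h0
    · rw [← h0]; exact hβ
    obtain ⟨φ, hφ⟩ : ∃ φ : ℝ, φ = t + arg ((z - p) * cexp (-(t * I))) := ⟨_, rfl⟩
    have hn : ‖cexp (-(t * I))‖ = 1 := by
      have := Complex.norm_exp_ofReal_mul_I (-t)
      simpa using this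
    have e0 : ∀ s : ℝ, cexp (-(s * I)) * cexp (s * I) = 1 := by
      intro s; rw [← Complex.exp_add]; simp
    have hpolar : z - p = (‖z - p‖ : ℂ) * cexp (φ * I) := by
      have h1 := Complex.norm_mul_exp_arg_mul_I ((z - p) * cexp (-(t * I)))
      rw [norm_mul, hn, mul_one] at h1
      rw [hφ]
      push_cast
      rw [add_mul, Complex.exp_add]
      linear_combination (-cexp (t * I)) * h1 - (z - p) * e0 t
    have hconj : conj (z - p) = (‖z - p‖ : ℂ) * cexp (-(φ * I)) := by
      conv_lhs => rw [hpolar]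
      rw [map_mul, Complex.conj_ofReal, ← Complex.exp_conj]
      simp
    have h1 : h φ ≤ (cexp (-(φ * I)) * p).re := by
      refine hh φ _ fun w hw => ?_
      have h2 := hmin w (subset_closure hw)
      rw [Complex.inner, hconj] at h2
      have h3 : (w - p) * ((‖z - p‖ : ℂ) * cexp (-(φ * I)))
          = (‖z - p‖ : ℂ) * (cexp (-(φ * I)) * w - cexp (-(φ * I)) * p) := by ring
      rw [h3, Complex.re_ofReal_mul, Complex.sub_re] at h2
      have := nonpos_of_mul_nonpos_right h2 h0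
      linarith
    have h2 := hz φ (by rw [hφ]; linarith [Complex.neg_pi_lt_arg ((z - p) * cexp (-(t * I)))])
      (by rw [hφ]; linarith [Complex.arg_le_pi ((z - p) * cexp (-(t * I)))])
    have h3 : (cexp (-(φ * I)) * z).re - (cexp (-(φ * I)) * p).re = ‖z - p‖ := by
      rw [← Complex.sub_re, ← mul_sub]
      have : cexp (-(φ * I)) * (z - p) = (‖z - p‖ : ℂ) := by
        linear_combination cexp (-(φ * I)) * hpolar + (‖z - p‖ : ℂ) * e0 φ
      rw [this, Complex.ofReal_re]
    linarith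
  obtain ⟨w, hw, hpw⟩ := Metric.mem_closure_iff.mp hp (η - β) (by linarith)
  refine ⟨w, hw, ?_⟩
  rw [dist_eq_norm] at hpw
  calc ‖z - w‖ = ‖(z - p) + (p - w)‖ := by congr 1; ring
    _ ≤ ‖z - p‖ + ‖p - w‖ := norm_add_le _ _
    _ < η := by linarith

theorem exists_curve (W : Set ℂ) (hne : W.Nonempty) (hW : Convex ℝ W) (L : ℝ)
    (hL : ∀ w ∈ W, ‖w‖ ≤ L) (η : ℝ) (hη : 0 < η) :
    ∃ (σ : ℝ → ℂ) (ρ : ℝ → ℝ) (δ : ℝ), 0 < δ ∧ Continuous ρ ∧ (∀ t, 0 ≤ ρ t) ∧
      (∀ t : ℝ, HasDerivAt σ (I * ρ t * cexp (t * I)) t) ∧ σ (2 * π) = σ 0 ∧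
      (∀ t : ℝ, ∀ w ∈ W, δ ≤ (cexp (-(t * I)) * (σ t - w)).re) ∧
      ∀ t : ℝ, ∃ w ∈ W, ‖σ t - w‖ < η := by
  obtain ⟨h, hh1, hh2⟩ := exists_support_fn W hne L hL
  have hL0 : 0 ≤ L := by
    obtain ⟨w, hw⟩ := hne
    exact (norm_nonneg _).trans (hL w hw)
  have hlip0 : ∀ s t, h s ≤ h t + L * |s - t| := by
    intro s t
    refine hh2 s _ fun w hw => ?_
    have h1 := hh1 t w hw
    have h2 : ((cexp (-(s * I)) - cexp (-(t * I))) * w).re ≤ L * |s - t| := by
      refine (Complex.re_le_norm _).trans ?_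
      rw [norm_mul, mul_comm]
      exact mul_le_mul (hL w hw) (norm_exp_neg_sub_le s t) (norm_nonneg _) hL0
    rw [sub_mul, Complex.sub_re] at h2
    linarith
  have hlip : ∀ s t, |h s - h t| ≤ L * |s - t| := by
    intro s t
    have h1 := hlip0 s t
    have h2 := hlip0 t s
    rw [abs_sub_comm t s] at h2
    rw [abs_le]
    constructor <;> linarith
  obtain ⟨ε, hε⟩ : ∃ ε : ℝ, ε = min 1 (η / 4 / (L + 1)) := ⟨_, rfl⟩
  have hε0 : 0 < ε := by rw [hε]; positivity
  have hε1 : ε ≤ 1 := hε ▸ min_le_left _ _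
  have hε2 : L * ε ≤ η / 4 := by
    have : ε ≤ η / 4 / (L + 1) := hε ▸ min_le_right _ _
    rw [le_div_iff₀ (by linarith)] at this
    nlinarith
  have hcos : 0 < Real.cos ε :=
    Real.cos_pos_of_mem_Ioo ⟨by linarith [Real.pi_gt_three], by linarith [Real.pi_gt_three]⟩
  have hsub : ∀ t, 2 * Real.cos ε * h t ≤ h (t + ε) + h (t - ε) := by
    intro t
    rw [mul_comm, ← le_div_iff₀ (by positivity)]
    refine hh2 t _ fun w hw => ?_
    rw [le_div_iff₀ (by positivity)]
    have h1 := hh1 (t + ε) w hw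
    have h2 := hh1 (t - ε) w hw
    have h3 : cexp (-(((t + ε : ℝ) : ℂ) * I)) * w + cexp (-(((t - ε : ℝ) : ℂ) * I)) * w
        = ((2 * Real.cos ε : ℝ) : ℂ) * (cexp (-(t * I)) * w) := by
      have e1 : cexp (-(((t + ε : ℝ) : ℂ) * I)) = cexp (-(t * I)) * cexp (-(ε * I)) := by
        rw [← Complex.exp_add]; congr 1; push_cast; ring
      have e2 : cexp (-(((t - ε : ℝ) : ℂ) * I)) = cexp (-(t * I)) * cexp (ε * I) := by
        rw [← Complex.exp_add]; congr 1; push_cast; ring
      have e4 : 2 * Complex.cos ε = cexp (ε * I) + cexp (-(ε * I)) := by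
        rw [Complex.two_cos]; simp
      rw [e1, e2]
      push_cast
      linear_combination (-(cexp (-(t * I)) * w)) * e4
    have h4 := congrArg Complex.re h3
    rw [Complex.add_re, Complex.re_ofReal_mul] at h4
    linarith
  have hexp : ∀ t : ℝ, cexp (-(((t + 2 * π : ℝ) : ℂ) * I)) = cexp (-(t * I)) := by
    intro t
    push_cast
    rw [add_mul, neg_add, Complex.exp_add, Complex.exp_neg (2 * π * I), Complex.exp_two_pi_mul_I]
    simp
  have hper : ∀ t, h (t + 2 * π) = h t := by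
    intro t
    apply le_antisymm
    · exact hh2 _ _ fun w hw => by rw [hexp]; exact hh1 t w hw
    · exact hh2 _ _ fun w hw => by rw [← hexp]; exact hh1 _ w hw
  obtain ⟨σ, ρ, hρc, hρ, hσ, hσper, hσh⟩ := exists_smooth_curve h L ε hL0 hε0 hε1 hlip hsub hper
  have e0 : ∀ s : ℝ, cexp (-(s * I)) * cexp (s * I) = 1 := by
    intro s; rw [← Complex.exp_add]; simp
  have hd : ∀ t : ℝ, HasDerivAt (fun t : ℝ => σ t + ((η / 2 : ℝ) : ℂ) * cexp (t * I))
      (I * ((ρ t + η / 2 : ℝ) : ℂ) * cexp (t * I)) t := by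
    intro t
    have h0 : HasDerivAt (fun s : ℝ => (s : ℂ)) 1 t := Complex.ofRealCLM.hasDerivAt
    have h1 := (hσ t).add (((h0.mul_const I).cexp).const_mul ((η / 2 : ℝ) : ℂ))
    have h2 : I * ρ t * cexp (t * I) + ((η / 2 : ℝ) : ℂ) * (cexp (t * I) * (1 * I))
        = I * ((ρ t + η / 2 : ℝ) : ℂ) * cexp (t * I) := by push_cast; ring
    rw [h2] at h1
    exact h1
  have hre : ∀ t : ℝ, (cexp (-(t * I)) * (σ t + ((η / 2 : ℝ) : ℂ) * cexp (t * I))).re
      = (cexp (-(t * I)) * σ t).re + η / 2 := by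
    intro t
    have : cexp (-(t * I)) * (σ t + ((η / 2 : ℝ) : ℂ) * cexp (t * I))
        = cexp (-(t * I)) * σ t + ((η / 2 : ℝ) : ℂ) := by
      linear_combination ((η / 2 : ℝ) : ℂ) * e0 t
    rw [this, Complex.add_re, Complex.ofReal_re]
  refine ⟨fun t : ℝ => σ t + ((η / 2 : ℝ) : ℂ) * cexp (t * I), fun t => ρ t + η / 2, η / 4,
    by positivity, by fun_prop, fun t => by linarith [hρ t], hd, ?_, ?_, ?_⟩
  · simp [hσper]
  · intro t w hw
    rw [mul_sub, Complex.sub_re, hre]
    have := abs_le.mp (hσh t)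
    have := hh1 t w hw
    linarith
  · intro t
    refine near_of_le_support W hne hW h hh2 _ t (3 * η / 4) η (by positivity) (by linarith) ?_
    intro φ h1 h2
    refine (curve_le_support _ (fun t => ρ t + η / 2) (by fun_prop)
      (fun t => by linarith [hρ t]) hd t φ h1 h2).trans ?_
    rw [hre]
    have := abs_le.mp (hσh φ)
    linarith

end Vale.Agent.P123
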