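import Vale.Agent.P123.Abstract

/-! From a positive operator kernel to the bound 2. -/

open scoped InnerProductSpace ComplexConjugate
open ContinuousLinearMap MeasureTheory

namespace Vale.Agent.P123

variable {H : Type*} [NormedAddCommGroup H] [InnerProductSpace ℂ H]

theorem pointwise_ineq (ν : H →L[ℂ] H) (hpos : ∀ u, 0 ≤ (⟪u, ν u⟫_ℂ).re) (z : ℂ) (hz : ‖z‖ ≤ 1)
    (n : ℕ) (c : ℝ) (hc : 0 < c) (u x y : H) :
    0 ≤ (((conj z) ^ n * ⟪y, ν u⟫_ℂ).re + (z ^ n * ⟪u, ν y⟫_ℂ).re)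
      - (((conj z) ^ (n + 1) * ⟪x, ν u⟫_ℂ).re + (z ^ (n + 1) * ⟪u, ν x⟫_ℂ).re)
      + c * (⟪u, ν u⟫_ℂ).re
      + (1 / c) * ((⟪x, ν x⟫_ℂ).re + (⟪y, ν y⟫_ℂ).re
        - ((conj z * ⟪x, ν y⟫_ℂ).re + (z * ⟪y, ν x⟫_ℂ).re)) := by
  have expand : ∀ (a b : ℂ) (v w : H), (⟪a • v + b • w, ν (a • v + b • w)⟫_ℂ).re
      = ‖a‖ ^ 2 * (⟪v, ν v⟫_ℂ).re + (conj a * b * ⟪v, ν w⟫_ℂ).re + (conj b * a * ⟪w, ν v⟫_ℂ).re
        + ‖b‖ ^ 2 * (⟪w, ν w⟫_ℂ).re := by
    intro a b v w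
    have ha : conj a * a = ((‖a‖ ^ 2 : ℝ) : ℂ) := by
      rw [Complex.conj_mul']; simp
    have hb : conj b * b = ((‖b‖ ^ 2 : ℝ) : ℂ) := by
      rw [Complex.conj_mul']; simp
    have : ⟪a • v + b • w, ν (a • v + b • w)⟫_ℂ
        = (conj a * a) * ⟪v, ν v⟫_ℂ + conj a * b * ⟪v, ν w⟫_ℂ + conj b * a * ⟪w, ν v⟫_ℂ
          + (conj b * b) * ⟪w, ν w⟫_ℂ := by
      simp only [map_add, map_smul, inner_add_left, inner_add_right, inner_smul_left,
        inner_smul_right]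
      ring
    rw [this, ha, hb]
    simp only [Complex.add_re, Complex.re_ofReal_mul]
  obtain ⟨w, hw⟩ : ∃ w : H, w = (1 : ℂ) • y + (-z) • x := ⟨_, rfl⟩
  have h1 := hpos ((c : ℂ) • u + (z ^ n) • w)
  rw [expand] at h1
  have h2 : (⟪w, ν w⟫_ℂ).re = (⟪y, ν y⟫_ℂ).re - (z * ⟪y, ν x⟫_ℂ).re - (conj z * ⟪x, ν y⟫_ℂ).re
      + ‖z‖ ^ 2 * (⟪x, ν x⟫_ℂ).re := by
    rw [hw, expand]
    simp
    ring
  have h3 : (conj (c : ℂ) * z ^ n * ⟪u, ν w⟫_ℂ).re
      = c * ((z ^ n * ⟪u, ν y⟫_ℂ).re - (z ^ (n + 1) * ⟪u, ν x⟫_ℂ).re) := by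
    have : conj (c : ℂ) * z ^ n * ⟪u, ν w⟫_ℂ
        = (c : ℂ) * (z ^ n * ⟪u, ν y⟫_ℂ - z ^ (n + 1) * ⟪u, ν x⟫_ℂ) := by
      rw [hw]
      simp only [map_add, map_smul, inner_add_right, inner_smul_right, Complex.conj_ofReal]
      ring
    rw [this, Complex.re_ofReal_mul, Complex.sub_re]
  have h4 : (conj (z ^ n) * (c : ℂ) * ⟪w, ν u⟫_ℂ).re
      = c * (((conj z) ^ n * ⟪y, ν u⟫_ℂ).re - ((conj z) ^ (n + 1) * ⟪x, ν u⟫_ℂ).re) := by
    have : conj (z ^ n) * (c : ℂ) * ⟪w, ν u⟫_ℂ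
        = (c : ℂ) * ((conj z) ^ n * ⟪y, ν u⟫_ℂ - (conj z) ^ (n + 1) * ⟪x, ν u⟫_ℂ) := by
      rw [hw]
      simp only [inner_add_left, inner_smul_left, map_pow, map_neg, map_one]
      ring
    rw [this, Complex.re_ofReal_mul, Complex.sub_re]
  have h5 : ‖z ^ n‖ ^ 2 * (⟪w, ν w⟫_ℂ).re ≤ (⟪w, ν w⟫_ℂ).re := by
    have : ‖z ^ n‖ ^ 2 ≤ 1 := by
      rw [norm_pow]
      exact pow_le_one₀ (by positivity) (pow_le_one₀ (norm_nonneg _) hz)
    nlinarith [hpos w]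
  have h6 : ‖z‖ ^ 2 * (⟪x, ν x⟫_ℂ).re ≤ (⟪x, ν x⟫_ℂ).re := by
    have : ‖z‖ ^ 2 ≤ 1 := pow_le_one₀ (norm_nonneg _) hz
    nlinarith [hpos x]
  have h7 : ‖(c : ℂ)‖ ^ 2 = c ^ 2 := by simp
  rw [h3, h4, h7] at h1
  rw [h2] at h5
  generalize ((conj z) ^ n * ⟪y, ν u⟫_ℂ).re = a1 at *
  generalize (z ^ n * ⟪u, ν y⟫_ℂ).re = a2 at *
  generalize ((conj z) ^ (n + 1) * ⟪x, ν u⟫_ℂ).re = a3 at *
  generalize (z ^ (n + 1) * ⟪u, ν x⟫_ℂ).re = a4 at *
  generalize (conj z * ⟪x, ν y⟫_ℂ).re = a5 at *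
  generalize (z * ⟪y, ν x⟫_ℂ).re = a6 at *
  have h8 : 0 ≤ c * (a1 + a2 - (a3 + a4) + c * (⟪u, ν u⟫_ℂ).re)
      + ((⟪x, ν x⟫_ℂ).re + (⟪y, ν y⟫_ℂ).re - (a5 + a6)) := by
    rw [h2] at h1
    nlinarith
  have h9 := div_nonneg h8 hc.le
  have hc' : c ≠ 0 := hc.ne'
  rw [add_div, mul_div_cancel_left₀ _ hc', div_eq_inv_mul, ← one_div] at h9
  exact h9

variable [CompleteSpace H]

theorem re_inner_integral (g : ℝ → H →L[ℂ] H) (hg : Continuous g) (a b : ℝ) (u v : H) :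
    (⟪v, (∫ t in a..b, g t) u⟫_ℂ).re = ∫ t in a..b, (⟪v, g t u⟫_ℂ).re := by
  let L : (H →L[ℂ] H) →L[ℝ] ℝ :=
    Complex.reCLM.comp (((innerSL ℂ v).comp (ContinuousLinearMap.apply ℂ H u)).restrictScalars ℝ)
  have := L.intervalIntegral_comp_comm (hg.intervalIntegrable (μ := volume) a b)
  exact this.symm

theorem norm_le_two_of_kernel (T : H →L[ℂ] H) (ν : ℝ → H →L[ℂ] H) (f : ℝ → ℂ) (a b : ℝ)
    (hab : a ≤ b) (hν : Continuous ν) (hf : Continuous f) (hf1 : ∀ t, ‖f t‖ ≤ 1)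
    (hpos : ∀ t u, 0 ≤ (⟪u, ν t u⟫_ℂ).re) (hcomm : ∀ t, Commute (ν t) T)
    (hint : ∀ n, ∫ t in a..b, f t ^ n • ν t = T ^ n) : ‖T‖ ≤ 2 := by
  have hc1 : ∀ n : ℕ, Continuous fun t => f t ^ n • ν t := fun n => by fun_prop
  have hc2 : ∀ n : ℕ, Continuous fun t => (conj (f t)) ^ n • ν t := fun n =>
    ((Complex.continuous_conj.comp hf).pow n).smul hν
  have hbd : ∀ g : ℝ → ℂ, (∀ t, ‖g t‖ ≤ 1) → ∀ n : ℕ,
      ‖∫ t in a..b, g t ^ n • ν t‖ ≤ ∫ t in a..b, ‖ν t‖ := by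
    intro g hg n
    refine intervalIntegral.norm_integral_le_of_norm_le hab ?_ (hν.norm.intervalIntegrable a b)
    refine Filter.Eventually.of_forall fun t _ => ?_
    rw [norm_smul, norm_pow]
    have : ‖g t‖ ^ n ≤ 1 := pow_le_one₀ (norm_nonneg _) (hg t)
    nlinarith [norm_nonneg (ν t)]
  refine norm_le_two_of_dilation T (fun n => ∫ t in a..b, (conj (f t)) ^ n • ν t)
    (∫ t in a..b, ‖ν t‖) ?_ ?_ ?_ ?_
  · intro n
    have h1 := (ContinuousLinearMap.mul ℂ (H →L[ℂ] H) T).intervalIntegral_comp_comm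
      ((hc2 n).intervalIntegrable (μ := volume) a b)
    have h2 := ((ContinuousLinearMap.mul ℂ (H →L[ℂ] H)).flip T).intervalIntegral_comp_comm
      ((hc2 n).intervalIntegrable (μ := volume) a b)
    simp only [ContinuousLinearMap.mul_apply', ContinuousLinearMap.flip_apply] at h1 h2
    show _ * _ = _ * _
    rw [← h1, ← h2]
    congr 1
    ext1 t
    rw [smul_mul_assoc, mul_smul_comm, (hcomm t).eq]
  · intro n
    rw [← hint n]
    exact hbd f hf1 n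
  · intro n
    exact hbd (fun t => conj (f t)) (fun t => by simpa using hf1 t) n
  · intro n c hc u x y
    have hE : ∀ (k : ℕ) (v w : H), (⟪v, (∫ t in a..b, (conj (f t)) ^ k • ν t) w⟫_ℂ).re
        = ∫ t in a..b, ((conj (f t)) ^ k * ⟪v, ν t w⟫_ℂ).re := by
      intro k v w
      rw [re_inner_integral _ (hc2 k)]
      simp only [_root_.smul_apply, inner_smul_right]
    have hTk : ∀ (k : ℕ) (v w : H), (⟪(T ^ k) v, w⟫_ℂ).re
        = ∫ t in a..b, ((f t) ^ k * ⟪w, ν t v⟫_ℂ).re := by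
      intro k v w
      rw [← inner_conj_symm, Complex.conj_re, ← hint k, re_inner_integral _ (hc1 k)]
      simp only [_root_.smul_apply, inner_smul_right]
    have hsq : ∀ v : H, ‖v‖ ^ 2 = ∫ t in a..b, (⟪v, ν t v⟫_ℂ).re := by
      intro v
      have := hTk 0 v v
      simpa [re_inner_self_eq, ← Complex.ofReal_pow] using this
    have hT1 : (⟪T x, y⟫_ℂ).re = ∫ t in a..b, (f t * ⟪y, ν t x⟫_ℂ).re := by
      simpa using hTk 1 x y
    have hE1 : (⟪x, (∫ t in a..b, (conj (f t)) ^ 1 • ν t) y⟫_ℂ).re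
        = ∫ t in a..b, (conj (f t) * ⟪x, ν t y⟫_ℂ).re := by
      rw [hE]; simp only [pow_one]
    rw [hE1, hT1, hE, hE, hTk, hTk, hsq u, hsq x, hsq y]
    have hcf : Continuous fun t => conj (f t) := Complex.continuous_conj.comp hf
    have hci : ∀ v w : H, Continuous fun t => ⟪v, ν t w⟫_ℂ := fun v w => by fun_prop
    have i1 : ∀ (g : ℝ → ℂ), Continuous g → ∀ v w : H,
        IntervalIntegrable (fun t => (g t * ⟪v, ν t w⟫_ℂ).re) volume a b := fun g hg v w =>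
      (Complex.continuous_re.comp (hg.mul (hci v w))).intervalIntegrable a b
    have i2 : ∀ v w : H,
        IntervalIntegrable (fun t => (⟪v, ν t w⟫_ℂ).re) volume a b := fun v w =>
      (Complex.continuous_re.comp (hci v w)).intervalIntegrable a b
    have hnn := intervalIntegral.integral_nonneg_of_forall (μ := volume) hab
      (fun t => pointwise_ineq (ν t) (hpos t) (f t) (hf1 t) n c hc u x y)
    have j1 := i1 (fun t => conj (f t) ^ n) (hcf.pow n) y u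
    have j2 := i1 (fun t => f t ^ n) (hf.pow n) u y
    have j3 := i1 (fun t => conj (f t) ^ (n + 1)) (hcf.pow (n + 1)) x u
    have j4 := i1 (fun t => f t ^ (n + 1)) (hf.pow (n + 1)) u x
    have j5 := i1 _ hcf x y
    have j6 := i1 _ hf y x
    rw [intervalIntegral.integral_add (((j1.add j2).sub (j3.add j4)).add ((i2 u u).const_mul c))
        ((((i2 x x).add (i2 y y)).sub (j5.add j6)).const_mul _),
      intervalIntegral.integral_add ((j1.add j2).sub (j3.add j4)) ((i2 u u).const_mul c),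
      intervalIntegral.integral_sub (j1.add j2) (j3.add j4),
      intervalIntegral.integral_add j1 j2, intervalIntegral.integral_add j3 j4,
      intervalIntegral.integral_const_mul, intervalIntegral.integral_const_mul,
      intervalIntegral.integral_sub ((i2 x x).add (i2 y y)) (j5.add j6),
      intervalIntegral.integral_add (i2 x x) (i2 y y), intervalIntegral.integral_add j5 j6] at hnn
    exact hnn

end Vale.Agent.P123
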