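import Vale.Agent.P123.Convexity
import Vale.Agent.P123.Kernel
import Vale.Agent.P123.Contour
import Vale.Agent.P123.Geometry

/-! Crouzeix's inequality with constant 2, and its sharpness. -/

open scoped InnerProductSpace ComplexConjugate Real
open Complex

namespace Vale.Agent.P123

universe u

section upper

variable {H : Type*} [NormedAddCommGroup H] [InnerProductSpace ℂ H]

theorem norm_le_of_mem_numericalRange (A : H →L[ℂ] H) (w : ℂ) (hw : w ∈ numericalRange A) :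
    ‖w‖ ≤ ‖A‖ := by
  obtain ⟨x, hx, rfl⟩ := hw
  refine (norm_inner_le_norm _ _).trans ?_
  have := A.le_opNorm x
  rw [hx] at this ⊢
  linarith

theorem numericalRange_nonempty [Nontrivial H] (A : H →L[ℂ] H) : (numericalRange A).Nonempty := by
  obtain ⟨x, hx⟩ := exists_norm_eq H (zero_le_one' ℝ)
  exact ⟨_, x, hx, rfl⟩

theorem bddAbove_image (A : H →L[ℂ] H) (P : Polynomial ℂ) :
    BddAbove ((fun z => ‖P.eval z‖) '' numericalRange A) := by
  have hc : Continuous fun z : ℂ => ‖P.eval z‖ := by fun_prop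
  refine ((isCompact_closedBall (0 : ℂ) ‖A‖).image hc).bddAbove.mono (Set.image_mono ?_)
  intro w hw
  simpa using norm_le_of_mem_numericalRange A w hw

theorem accretive_of_numericalRange (A : H →L[ℂ] H) (e z : ℂ) (δ : ℝ)
    (h : ∀ w ∈ numericalRange A, δ ≤ (e * (z - w)).re) (u : H) :
    δ * ‖u‖ ^ 2 ≤ (⟪u, (e • (z • (1 : H →L[ℂ] H) - A)) u⟫_ℂ).re := by
  rcases eq_or_lt_of_le (norm_nonneg u) with h0 | h0
  · have : u = 0 := norm_eq_zero.mp h0.symm
    simp [this]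
  obtain ⟨x, hx⟩ : ∃ x : H, x = ((‖u‖⁻¹ : ℝ) : ℂ) • u := ⟨_, rfl⟩
  have hx1 : ‖x‖ = 1 := by
    rw [hx, norm_smul, Complex.norm_real, Real.norm_eq_abs, abs_of_pos (inv_pos.mpr h0)]
    field_simp
  have hu : u = (‖u‖ : ℂ) • x := by
    rw [hx, smul_smul, ← Complex.ofReal_mul, mul_inv_cancel₀ h0.ne']; simp
  have h1 := h _ ⟨x, hx1, rfl⟩
  have h2 : ⟪x, (e • (z • (1 : H →L[ℂ] H) - A)) x⟫_ℂ = e * (z - ⟪x, A x⟫_ℂ) := by
    have : (e • (z • (1 : H →L[ℂ] H) - A)) x = e • (z • x - A x) := rfl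
    rw [this, inner_smul_right, inner_sub_right, inner_smul_right, inner_self_eq_norm_sq_to_K, hx1]
    simp
  generalize ‖u‖ = r at hu h0
  rw [hu, map_smul, re_inner_real_smul_left, re_inner_real_smul_right, h2]
  nlinarith [mul_pos h0 h0]

theorem commute_aeval (N A : H →L[ℂ] H) (h : Commute N A) (Q : Polynomial ℂ) :
    Commute N (Polynomial.aeval A Q) := by
  induction Q using Polynomial.induction_on' with
  | add p q hp hq => rw [map_add]; exact hp.add_right hq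
  | monomial k c =>
    rw [Polynomial.aeval_monomial, ← Algebra.smul_def]
    exact (h.pow_right k).smul_right c

variable [CompleteSpace H]

theorem crouzeix_of_bound [Nontrivial H] (A : H →L[ℂ] H) (P : Polynomial ℂ) (M : ℝ)
    (hM : ∀ w ∈ numericalRange A, ‖P.eval w‖ ≤ M) : ‖Polynomial.aeval A P‖ ≤ 2 * M := by
  have hM0 : 0 ≤ M := by
    obtain ⟨w, hw⟩ := numericalRange_nonempty A
    exact (norm_nonneg _).trans (hM w hw)
  refine le_of_forall_pos_le_add fun ε hε => ?_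
  have hc : Continuous fun z : ℂ => P.eval z := by fun_prop
  have huc := (isCompact_closedBall (0 : ℂ) (‖A‖ + 1)).uniformContinuousOn_of_continuous
    hc.continuousOn
  obtain ⟨η, hη, hη'⟩ := Metric.uniformContinuousOn_iff.mp huc (ε / 2) (by positivity)
  obtain ⟨σ, ρ, δ, hδ, hρc, hρ, hσ, hper, hsup, hnear⟩ := exists_curve (numericalRange A)
    (numericalRange_nonempty A) (convex_numericalRange A) ‖A‖ (norm_le_of_mem_numericalRange A)
    (min η 1) (by positivity)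
  obtain ⟨ν, hνc, hνpos, hνA, hνint⟩ := exists_kernel A σ ρ δ hδ hρc hρ hσ hper
    fun t u => accretive_of_numericalRange A _ _ δ (hsup t) u
  have hσc : Continuous σ := continuous_iff_continuousAt.mpr fun t => (hσ t).continuousAt
  have hbd : ∀ t, ‖P.eval (σ t)‖ ≤ M + ε / 2 := by
    intro t
    obtain ⟨w, hw, hw'⟩ := hnear t
    have h1 := norm_le_of_mem_numericalRange A w hw
    have h2 : ‖σ t‖ ≤ ‖A‖ + 1 := by
      calc ‖σ t‖ = ‖w + (σ t - w)‖ := by congr 1; ring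
        _ ≤ ‖w‖ + ‖σ t - w‖ := norm_add_le _ _
        _ ≤ ‖A‖ + 1 := add_le_add h1 (hw'.le.trans (min_le_right _ _))
    have h3 := hη' (σ t) (by simpa using h2) w (by simp; linarith)
      (by rw [dist_eq_norm]; exact hw'.trans_le (min_le_left _ _))
    rw [dist_eq_norm] at h3
    calc ‖P.eval (σ t)‖ = ‖P.eval w + (P.eval (σ t) - P.eval w)‖ := by congr 1; ring
      _ ≤ ‖P.eval w‖ + ‖P.eval (σ t) - P.eval w‖ := norm_add_le _ _
      _ ≤ M + ε / 2 := add_le_add (hM w hw) h3.le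
  obtain ⟨m, hm⟩ : ∃ m : ℝ, m = M + ε / 2 := ⟨_, rfl⟩
  have hm0 : 0 < m := by rw [hm]; positivity
  rw [← hm] at hbd
  obtain ⟨Q, hQ⟩ : ∃ Q : Polynomial ℂ, Q = ((m⁻¹ : ℝ) : ℂ) • P := ⟨_, rfl⟩
  have hT := norm_le_two_of_kernel (Polynomial.aeval A Q) ν (fun t => Q.eval (σ t)) 0 (2 * π)
    (by positivity) hνc (by fun_prop) ?_ hνpos ?_ ?_
  · rw [hQ, map_smul, norm_smul, Complex.norm_real, Real.norm_eq_abs,
      abs_of_pos (inv_pos.mpr hm0), inv_mul_le_iff₀ hm0] at hT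
    linarith
  · intro t
    rw [hQ, Polynomial.eval_smul, norm_smul, Complex.norm_real, Real.norm_eq_abs,
      abs_of_pos (inv_pos.mpr hm0), inv_mul_le_iff₀ hm0, mul_one]
    exact hbd t
  · intro t
    exact commute_aeval _ _ (hνA t) Q
  · intro n
    rw [← map_pow, ← hνint]
    simp only [Polynomial.eval_pow]

theorem crouzeix [Nontrivial H] (A : H →L[ℂ] H) (P : Polynomial ℂ) :
    ‖Polynomial.aeval A P‖ ≤ 2 * sSup ((fun z => ‖P.eval z‖) '' numericalRange A) :=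
  crouzeix_of_bound A P _ fun _ hw => le_csSup (bddAbove_image A P) ⟨_, hw, rfl⟩

end upper

theorem two_le_of_bound (C : ℝ)
    (hC : ∀ (H : Type u) [NormedAddCommGroup H] [InnerProductSpace ℂ H] [CompleteSpace H]
      [Nontrivial H] (A : H →L[ℂ] H) (P : Polynomial ℂ),
      ‖Polynomial.aeval A P‖ ≤ C * sSup ((fun z => ‖P.eval z‖) '' numericalRange A)) : 2 ≤ C := by
  obtain ⟨e1, he1⟩ : ∃ e : EuclideanSpace ℂ (ULift.{u} (Fin 2)),
    e = EuclideanSpace.single (ULift.up 0) 1 := ⟨_, rfl⟩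
  obtain ⟨e2, he2⟩ : ∃ e : EuclideanSpace ℂ (ULift.{u} (Fin 2)),
    e = EuclideanSpace.single (ULift.up 1) 1 := ⟨_, rfl⟩
  obtain ⟨A, hA⟩ : ∃ A : EuclideanSpace ℂ (ULift.{u} (Fin 2)) →L[ℂ]
    EuclideanSpace ℂ (ULift.{u} (Fin 2)), A = (innerSL ℂ e2).smulRight e1 := ⟨_, rfl⟩
  have h1 := hC _ A Polynomial.X
  have hn1 : ‖e1‖ = 1 := by rw [he1]; simp
  have hn2 : ‖e2‖ = 1 := by rw [he2]; simp
  have h2 : 1 ≤ ‖A‖ := by
    have := A.le_opNorm e2
    have h3 : A e2 = e1 := by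
      rw [hA]; simp [inner_self_eq_norm_sq_to_K, hn2]
    rwa [h3, hn1, hn2, mul_one] at this
  have h3 : ∀ w ∈ numericalRange A, ‖w‖ ≤ 1 / 2 := by
    rintro _ ⟨x, hx, rfl⟩
    have h4 : ‖x‖ ^ 2 = ‖x (ULift.up 0)‖ ^ 2 + ‖x (ULift.up 1)‖ ^ 2 := by
      rw [EuclideanSpace.norm_sq_eq, ← Equiv.sum_comp Equiv.ulift.symm, Fin.sum_univ_two]
      rfl
    have h5 : ‖inner ℂ x (A x)‖ = ‖x (ULift.up 1)‖ * ‖x (ULift.up 0)‖ := by
      rw [hA, he1, he2]
      simp [EuclideanSpace.inner_single_left, EuclideanSpace.inner_single_right]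
    rw [h5]
    rw [hx] at h4
    nlinarith [sq_nonneg (‖x (ULift.up 0)‖ - ‖x (ULift.up 1)‖)]
  have h6 : sSup ((fun z => ‖(Polynomial.X : Polynomial ℂ).eval z‖) '' numericalRange A)
      ≤ 1 / 2 := by
    refine csSup_le ((numericalRange_nonempty A).image _) ?_
    rintro _ ⟨w, hw, rfl⟩
    simpa using h3 w hw
  have h7 : 0 ≤ sSup ((fun z => ‖(Polynomial.X : Polynomial ℂ).eval z‖) '' numericalRange A) := by
    refine Real.sSup_nonneg ?_
    rintro _ ⟨w, _, rfl⟩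
    exact norm_nonneg _
  rw [Polynomial.aeval_X] at h1
  by_contra hlt
  push Not at hlt
  generalize sSup ((fun z => ‖(Polynomial.X : Polynomial ℂ).eval z‖) '' numericalRange A) = S at *
  rcases eq_or_lt_of_le h7 with h8 | h8
  · rw [← h8] at h1; linarith
  · nlinarith

end Vale.Agent.P123
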